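import Vale.Agent.P216.H773.Inst4
import Vale.Agent.P216.H467E.TwoInst

/-! # `Sheet` for the trivial holonomy -/

open Set Topology
open Vale.Agent.P216.H288 Vale.Agent.P216.H494 Vale.Agent.P216.L250

namespace Vale.Agent.P216.H773

variable {M : Type} [MetricSpace M] [CompactSpace M]

/-- The rotations preserve the sheets of the trivial double covering. -/
theorem sheet_triv (G : GeoList M) (hD : DescentStmt (Hol.triv : Hol M) G) :
    (mkGSys Hol.triv G hD).Sheet := by
  intro s q hq h
  have h1 : q.2 = -q.2 := congrArg Prod.snd h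
  have h2 : q.2 ^ 2 = 1 := (H467E.mem_triv.1 hq).2
  have h3 : q.2 = 0 := by linear_combination h1 / 2
  rw [h3] at h2
  norm_num at h2

end Vale.Agent.P216.H773
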