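import Vale.Agent.P216.Bor.LocTop

/-!
# Localisation at the non free part of a cyclic action (P216, `S^3`), topological part

`ActQ X τ g p m`: `g` of order `p` on the compact set `X`, free outside the fixed set of `g^m`
(`p = 4`, `m = 2`), `τ` an involution commuting with `g` (`τ = id` is allowed).
Same proofs as in `Bor/LocTop` (941, 343), for a general cyclic group.
-/

open Set Matrix Filter Topology

namespace Vale.Agent.P216.H773

open Vale.Agent.P216.AS
open Vale.Agent.P216.Loc (cdist VanAt vanN_iff cut cut_of_mem cut_of_notMem cut_eqv Triv vanAt_comm)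

set_option linter.unusedSectionVars false

section top

variable {E : Type} [MetricSpace E]

/-- The data: a compact set with a symmetry `τ` and a commuting map `g` of order `p`, free outside
the fixed set of `g^m`. -/
structure ActQ (X : Set E) (τ g : E → E) (p m : ℕ) : Prop where
  cpt : IsCompact X
  one_lt : 1 < p
  τ_cont : ContinuousOn τ X
  g_cont : ContinuousOn g X
  τ_maps : MapsTo τ X X
  g_maps : MapsTo g X X
  τ_τ : ∀ x ∈ X, τ (τ x) = x
  g_p : ∀ x ∈ X, g^[p] x = x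
  comm : ∀ x ∈ X, g (τ x) = τ (g x)
  free : ∀ x ∈ X, g^[m] x ≠ x → ∀ j, 0 < j → j < p → g^[j] x ≠ x ∧ g^[j] x ≠ τ x

/-- the fixed set of `g^m` -/
def FixM (X : Set E) (g : E → E) (m : ℕ) : Set E := {x ∈ X | g^[m] x = x}

namespace ActQ

variable {X : Set E} {τ g : E → E} {p m : ℕ} (A : ActQ X τ g p m)

include A

theorem pos : 0 < p := by have := A.one_lt; omega

theorem it_maps (j : ℕ) : MapsTo g^[j] X X := A.g_maps.iterate j

theorem it_cont (j : ℕ) : ContinuousOn g^[j] X := by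
  induction j with
  | zero => exact continuousOn_id
  | succ j ih =>
    rw [Function.iterate_succ]
    exact ih.comp A.g_cont A.g_maps

theorem it_comm (j : ℕ) : ∀ x ∈ X, g^[j] (τ x) = τ (g^[j] x) := by
  induction j with
  | zero => intro x _; rfl
  | succ j ih =>
    intro x hx
    rw [Function.iterate_succ_apply', ih x hx, A.comm _ (A.it_maps j hx),
      ← Function.iterate_succ_apply' g]

omit A in
theorem it_it (g : E → E) (i j : ℕ) (x : E) : g^[i] (g^[j] x) = g^[j] (g^[i] x) := by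
  rw [← Function.iterate_add_apply, ← Function.iterate_add_apply, add_comm]

/-- invariant distance to the exceptional set -/
noncomputable def F (_ : ActQ X τ g p m) (x : E) : ℝ :=
  ∑ i ∈ Finset.range p, (dist (g^[i] x) (g^[m] (g^[i] x)) +
    dist (g^[i] (τ x)) (g^[m] (g^[i] (τ x))))

theorem F_cont : ContinuousOn A.F X := by
  unfold F
  refine continuousOn_finsetSum _ fun i _ => ?_
  have h1 : ContinuousOn (fun x => dist (g^[i] x) (g^[m] (g^[i] x))) X :=
    cdist (A.it_cont i) ((A.it_cont m).comp (A.it_cont i) (A.it_maps i))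
  exact h1.add (h1.comp A.τ_cont A.τ_maps)

theorem F_nonneg (x : E) : 0 ≤ A.F x :=
  Finset.sum_nonneg fun _ _ => add_nonneg dist_nonneg dist_nonneg

theorem F_eq_zero {x : E} (hx : x ∈ X) : A.F x = 0 ↔ g^[m] x = x := by
  constructor
  · intro h
    unfold F at h
    rw [Finset.sum_eq_zero_iff_of_nonneg fun _ _ => add_nonneg dist_nonneg dist_nonneg] at h
    have h1 := h 0 (Finset.mem_range.2 A.pos)
    have h2 : dist (g^[0] x) (g^[m] (g^[0] x)) = 0 := by
      have h3 : 0 ≤ dist (g^[0] x) (g^[m] (g^[0] x)) := dist_nonneg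
      have h4 : 0 ≤ dist (g^[0] (τ x)) (g^[m] (g^[0] (τ x))) := dist_nonneg
      linarith
    exact (dist_eq_zero.1 h2).symm
  · intro h
    have h1 : ∀ y, g^[m] y = y → ∀ j, g^[m] (g^[j] y) = g^[j] y := by
      intro y hy j
      rw [it_it g m j y, hy]
    have h2 : g^[m] (τ x) = τ x := by rw [A.it_comm m x hx, h]
    unfold F
    apply Finset.sum_eq_zero
    intro i _
    rw [h1 x h, h1 _ h2, dist_self, dist_self, add_zero]

theorem sum_shift {φ : E → ℝ} {x : E} (hx : x ∈ X) :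
    ∑ i ∈ Finset.range p, φ (g^[i] (g x)) = ∑ i ∈ Finset.range p, φ (g^[i] x) := by
  have h1 : ∀ i, φ (g^[i] (g x)) = φ (g^[i + 1] x) := fun i => by
    rw [Function.iterate_succ_apply]
  simp only [h1]
  have h2 := Finset.sum_range_succ' (fun i => φ (g^[i] x)) p
  have h3 := Finset.sum_range_succ (fun i => φ (g^[i] x)) p
  rw [A.g_p x hx] at h3
  simp only [Function.iterate_zero, id_eq] at h2
  linarith

theorem F_g {x : E} (hx : x ∈ X) : A.F (g x) = A.F x := by
  have h := A.sum_shift (φ := fun y => dist y (g^[m] y)) hx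
  have h' := A.sum_shift (φ := fun y => dist y (g^[m] y)) (A.τ_maps hx)
  unfold F
  rw [Finset.sum_add_distrib, Finset.sum_add_distrib]
  rw [← A.comm x hx, h, h']

theorem F_τ {x : E} (hx : x ∈ X) : A.F (τ x) = A.F x := by
  unfold F
  rw [Finset.sum_add_distrib, Finset.sum_add_distrib, A.τ_τ x hx, add_comm]

/-- the invariant neighbourhoods -/
theorem exists_nbhd {U : Set E} (hU : IsOpen U) (hAU : ∀ x ∈ X, g^[m] x = x → x ∈ U) :
    ∃ c > 0, ∀ x ∈ X, A.F x ≤ c → x ∈ U := by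
  have hK : IsCompact (X \ U) := A.cpt.diff hU
  rcases (X \ U).eq_empty_or_nonempty with he | hne
  · refine ⟨1, one_pos, fun x hx _ => ?_⟩
    by_contra hc
    have : x ∈ X \ U := ⟨hx, hc⟩
    rw [he] at this
    exact this
  · obtain ⟨y, hy, hmin⟩ := hK.exists_isMinOn hne (A.F_cont.mono sdiff_subset)
    have hpos : 0 < A.F y := by
      refine lt_of_le_of_ne (A.F_nonneg y) fun h => ?_
      exact hy.2 (hAU y hy.1 ((A.F_eq_zero hy.1).1 h.symm))
    refine ⟨A.F y / 2, by positivity, fun x hx hc => ?_⟩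
    by_contra hxU
    have h1 : A.F y ≤ A.F x := hmin (⟨hx, hxU⟩ : x ∈ X \ U)
    linarith

/-- distance to the pair `{x, τ x}` -/
noncomputable def psi (_ : ActQ X τ g p m) (x y : E) : ℝ := min (dist y x) (dist (τ y) x)

theorem psi_cont (x : E) : ContinuousOn (A.psi x) X := by
  unfold psi
  exact (cdist continuousOn_id continuousOn_const).inf (cdist A.τ_cont continuousOn_const)

theorem psi_nonneg (x y : E) : 0 ≤ A.psi x y := le_min dist_nonneg dist_nonneg

theorem psi_τ (x : E) {y : E} (hy : y ∈ X) : A.psi x (τ y) = A.psi x y := by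
  unfold psi
  rw [A.τ_τ y hy, min_comm]

theorem psi_zero {x y : E} (h : A.psi x y = 0) : y = x ∨ τ y = x := by
  unfold psi at h
  rcases min_choice (dist y x) (dist (τ y) x) with h1 | h1
  · rw [h1] at h
    exact Or.inl (dist_eq_zero.1 h)
  · rw [h1] at h
    exact Or.inr (dist_eq_zero.1 h)

/-- the translates of small neighbourhoods of a free orbit are separated -/
theorem exists_sep {x : E} (hx : x ∈ X) (hgx : g^[m] x ≠ x) :
    ∃ r > 0, ∀ j, 0 < j → j < p → ∀ y ∈ X, 6 * r < A.psi x y + A.psi x (g^[j] y) := by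
  have hne : X.Nonempty := ⟨x, hx⟩
  have hj : ∀ j, 0 < j → j < p → ∃ r > 0, ∀ y ∈ X, 6 * r < A.psi x y + A.psi x (g^[j] y) := by
    intro j hj0 hjp
    have hc : ContinuousOn (fun y => A.psi x y + A.psi x (g^[j] y)) X :=
      (A.psi_cont x).add ((A.psi_cont x).comp (A.it_cont j) (A.it_maps j))
    obtain ⟨y, hy, hmin⟩ := A.cpt.exists_isMinOn hne hc
    have hpos : 0 < A.psi x y + A.psi x (g^[j] y) := by
      refine lt_of_le_of_ne (add_nonneg (A.psi_nonneg _ _) (A.psi_nonneg _ _)) fun h => ?_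
      have h1 : A.psi x y = 0 := by
        have := A.psi_nonneg x y
        have := A.psi_nonneg x (g^[j] y)
        linarith
      have h2 : A.psi x (g^[j] y) = 0 := by
        have := A.psi_nonneg x y
        have := A.psi_nonneg x (g^[j] y)
        linarith
      -- `g^j x = x` or `g^j x = τ x`
      have key : g^[j] x = x ∨ g^[j] x = τ x := by
        rcases A.psi_zero h1 with h3 | h3
        · rcases A.psi_zero h2 with h4 | h4
          · left
            rw [← h3]
            rw [h3] at h4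
            rw [h3, h4]
          · right
            rw [h3] at h4
            rw [← A.τ_τ _ (A.it_maps j hx), h4]
        · have h5 : y = τ x := by rw [← h3, A.τ_τ y hy]
          rcases A.psi_zero h2 with h4 | h4
          · right
            rw [h5, A.it_comm j x hx] at h4
            rw [← A.τ_τ _ (A.it_maps j hx), h4]
          · left
            rw [h5, A.it_comm j x hx, A.τ_τ _ (A.it_maps j hx)] at h4
            exact h4
      rcases key with h3 | h3
      · exact (A.free x hx hgx j hj0 hjp).1 h3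
      · exact (A.free x hx hgx j hj0 hjp).2 h3
    refine ⟨(A.psi x y + A.psi x (g^[j] y)) / 7, by positivity, fun z hz => ?_⟩
    have h1 : A.psi x y + A.psi x (g^[j] y) ≤ A.psi x z + A.psi x (g^[j] z) := hmin hz
    linarith
  choose! r hr hr' using hj
  have h2 : 1 < p := A.one_lt
  obtain ⟨b, hb, hbmin⟩ := (Finset.Ioo 0 p).exists_min_image r
    ⟨1, Finset.mem_Ioo.2 ⟨one_pos, h2.trans_le le_rfl⟩⟩
  rw [Finset.mem_Ioo] at hb
  refine ⟨r b, hr b hb.1 hb.2, fun j hj0 hjp y hy => ?_⟩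
  have h3 := hbmin j (Finset.mem_Ioo.2 ⟨hj0, hjp⟩)
  have h4 := hr' j hj0 hjp y hy
  linarith

/-- the set of the points whose `F` is at most `c` -/
def N (c : ℝ) : Set E := {x ∈ X | A.F x ≤ c}

/-- a small piece around a free orbit -/
structure Piece (x : E) (r : ℝ) : Prop where
  pos : 0 < r
  sep : ∀ j, 0 < j → j < p → ∀ y ∈ X, 6 * r < A.psi x y + A.psi x (g^[j] y)

/-- the translates of a small piece -/
def W (x : E) (r : ℝ) : Set E := {y ∈ X | ∃ j < p, A.psi x (g^[j] y) ≤ r}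

/-- a neighbourhood of one translate -/
def D (x : E) (r : ℝ) : Set E := {y | A.psi x y < 2 * r}

theorem isCompact_le {f : E → ℝ} (hf : ContinuousOn f X) (c : ℝ) :
    IsCompact {x ∈ X | f x ≤ c} := by
  have h : IsClosed (X ∩ f ⁻¹' (Iic c)) :=
    hf.preimage_isClosed_of_isClosed A.cpt.isClosed isClosed_Iic
  exact A.cpt.of_isClosed_subset h inter_subset_left

theorem isCompact_N (c : ℝ) : IsCompact (A.N c) := A.isCompact_le A.F_cont c

theorem N_subset (c : ℝ) : A.N c ⊆ X := fun _ h => h.1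

theorem N_g {c : ℝ} {x : E} (hx : x ∈ A.N c) : g x ∈ A.N c :=
  ⟨A.g_maps hx.1, by rw [A.F_g hx.1]; exact hx.2⟩

theorem isCompact_W (x : E) (r : ℝ) : IsCompact (A.W x r) := by
  have h : A.W x r = ⋃ j ∈ Finset.range p, {y ∈ X | A.psi x (g^[j] y) ≤ r} := by
    ext y
    simp only [W, mem_ofPred_eq, mem_iUnion, Finset.mem_range, exists_prop]
    constructor
    · rintro ⟨hy, j, hj, h⟩
      exact ⟨j, hj, hy, h⟩
    · rintro ⟨j, hj, hy, h⟩
      exact ⟨hy, j, hj, h⟩
  rw [h]
  exact (Finset.range p).isCompact_biUnion fun j _ =>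
    A.isCompact_le ((A.psi_cont x).comp (A.it_cont j) (A.it_maps j)) r

theorem W_subset (x : E) (r : ℝ) : A.W x r ⊆ X := fun _ h => h.1

theorem W_g {x : E} {r : ℝ} {y : E} (hy : y ∈ A.W x r) : g y ∈ A.W x r := by
  obtain ⟨hyX, j, hj, h⟩ := hy
  refine ⟨A.g_maps hyX, ?_⟩
  rcases Nat.eq_zero_or_pos j with rfl | hj0
  · refine ⟨p - 1, by omega, ?_⟩
    rw [← Function.iterate_succ_apply, Nat.succ_eq_add_one, Nat.sub_add_cancel (by omega),
      A.g_p y hyX]
    exact h
  · refine ⟨j - 1, by omega, ?_⟩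
    rw [← Function.iterate_succ_apply, Nat.succ_eq_add_one, Nat.sub_add_cancel (by omega)]
    exact h

theorem D_τ {x : E} {r : ℝ} {y : E} (hy : y ∈ X) : τ y ∈ A.D x r ↔ y ∈ A.D x r := by
  unfold D
  rw [mem_ofPred_eq, mem_ofPred_eq, A.psi_τ x hy]

/-- near a point of `W`, exactly one translate of the point is in `D` -/
theorem unique_D {x : E} {r : ℝ} (P : A.Piece x r) {w : E} (hw : w ∈ A.W x r) :
    ∃ j₀ < p, ∃ ρ > 0, ∀ y ∈ X, dist y w < ρ → ∀ j < p, (g^[j] y ∈ A.D x r ↔ j = j₀) := by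
  obtain ⟨hwX, j₀, hj₀, hj⟩ := hw
  refine ⟨j₀, hj₀, ?_⟩
  have hr := P.pos
  have hfar : ∀ j < p, j ≠ j₀ → 5 * r < A.psi x (g^[j] w) := by
    intro j hjp hne
    rcases lt_or_gt_of_ne hne with h | h
    · have h1 := P.sep (j₀ - j) (by omega) (by omega) (g^[j] w) (A.it_maps j hwX)
      rw [← Function.iterate_add_apply, Nat.sub_add_cancel h.le] at h1
      linarith
    · have h1 := P.sep (j - j₀) (by omega) (by omega) (g^[j₀] w) (A.it_maps j₀ hwX)
      rw [← Function.iterate_add_apply, Nat.sub_add_cancel h.le] at h1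
      linarith
  have hev : ∀ᶠ y in 𝓝[X] w, ∀ j ∈ Finset.range p, (g^[j] y ∈ A.D x r ↔ j = j₀) := by
    rw [Finset.eventually_all]
    intro j hjr
    have hjp := Finset.mem_range.1 hjr
    have hc : ContinuousWithinAt (fun y => A.psi x (g^[j] y)) X w :=
      ((A.psi_cont x).comp (A.it_cont j) (A.it_maps j)) w hwX
    by_cases hne : j = j₀
    · subst hne
      have h1 : ∀ᶠ y in 𝓝[X] w, A.psi x (g^[j] y) < 2 * r :=
        hc.eventually (gt_mem_nhds (by linarith : A.psi x (g^[j] w) < 2 * r))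
      filter_upwards [h1] with y hy
      exact ⟨fun _ => rfl, fun _ => hy⟩
    · have h1 : ∀ᶠ y in 𝓝[X] w, 2 * r < A.psi x (g^[j] y) :=
        hc.eventually (lt_mem_nhds (by linarith [hfar j hjp hne] : 2 * r < A.psi x (g^[j] w)))
      filter_upwards [h1] with y hy
      refine ⟨fun h => ?_, fun h => absurd h hne⟩
      have h2 : A.psi x (g^[j] y) < 2 * r := h
      linarith
  obtain ⟨ρ, hρ, h⟩ := Metric.mem_nhdsWithin_iff.1 hev
  exact ⟨ρ, hρ, fun y hy hyw j hjp => h ⟨hyw, hy⟩ j (Finset.mem_range.2 hjp)⟩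

theorem triv_D {x : E} {r : ℝ} (P : A.Piece x r) {w : E} (hw : w ∈ A.W x r) :
    Triv X (A.D x r) w := by
  obtain ⟨j₀, hj₀, ρ, hρ, h⟩ := A.unique_D P hw
  refine ⟨ρ, hρ, ?_⟩
  by_cases hj : j₀ = 0
  · left
    intro y hy hyw
    exact (h y hy hyw 0 A.pos).2 hj.symm
  · right
    intro y hy hyw hD
    exact hj ((h y hy hyw 0 A.pos).1 hD).symm

/-- finitely many pieces cover the complement of a neighbourhood of the exceptional set -/
theorem exists_cover {c : ℝ} (hc : 0 < c) : ∃ L : List (E × ℝ),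
    (∀ P ∈ L, A.Piece P.1 P.2) ∧ ∀ y ∈ X, y ∉ A.N c → ∃ P ∈ L, y ∈ A.W P.1 P.2 := by
  classical
  have hK : IsCompact {x ∈ X | -A.F x ≤ -c} := A.isCompact_le A.F_cont.neg (-c)
  have hex : ∀ x ∈ {x ∈ X | -A.F x ≤ -c}, ∃ r > 0, A.Piece x r := by
    intro x hx
    have hgx : g^[m] x ≠ x := by
      intro h
      have h1 := (A.F_eq_zero hx.1).2 h
      have h2 := hx.2
      rw [h1] at h2
      linarith
    obtain ⟨r, hr, h⟩ := A.exists_sep hx.1 hgx
    exact ⟨r, hr, hr, h⟩
  choose! r hr hP using hex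
  obtain ⟨t, ht, htc⟩ := hK.elim_nhds_subcover (fun x => Metric.ball x (r x))
    (fun x hx => Metric.ball_mem_nhds x (hr x hx))
  refine ⟨t.toList.map fun x => (x, r x), ?_, ?_⟩
  · intro P hPm
    obtain ⟨x, hx, rfl⟩ := List.mem_map.1 hPm
    exact hP x (ht x (Finset.mem_toList.1 hx))
  · intro y hy hyN
    have hy' : y ∈ {x ∈ X | -A.F x ≤ -c} := by
      refine ⟨hy, ?_⟩
      by_contra hcon
      exact hyN ⟨hy, by linarith⟩
    obtain ⟨x, hx⟩ := mem_iUnion.1 (htc hy')
    obtain ⟨hxt, hyx⟩ := mem_iUnion.1 hx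
    refine ⟨(x, r x), List.mem_map.2 ⟨x, Finset.mem_toList.2 hxt, rfl⟩, hy, 0, A.pos, ?_⟩
    refine (min_le_left _ _).trans ?_
    exact (Metric.mem_ball.1 hyx).le

theorem isCompact_FixM : IsCompact (FixM X g m) := by
  have h := A.isCompact_le (cdist (A.it_cont m) continuousOn_id) 0
  convert h using 1
  ext x
  simp only [FixM, mem_ofPred_eq]
  refine and_congr_right fun _ => ?_
  constructor
  · intro h; rw [h]; simp
  · intro h
    exact dist_le_zero.1 h

theorem FixM_subset_N {c : ℝ} (hc : 0 ≤ c) : FixM X g m ⊆ A.N c := fun x hx =>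
  ⟨hx.1, by rw [(A.F_eq_zero hx.1).2 hx.2]; exact hc⟩

theorem N_mono {c c' : ℝ} (h : c ≤ c') : A.N c ⊆ A.N c' := fun _ hx => ⟨hx.1, hx.2.trans h⟩

theorem mapsTo_τ_FixM : MapsTo τ (FixM X g m) (FixM X g m) := fun x hx =>
  ⟨A.τ_maps hx.1, by rw [A.it_comm m x hx.1, hx.2]⟩

theorem mapsTo_g_FixM : MapsTo g (FixM X g m) (FixM X g m) := fun x hx =>
  ⟨A.g_maps hx.1, by
    have h := it_it g m 1 x
    rw [Function.iterate_one] at h
    rw [h, hx.2]⟩

end ActQ

end top

section coch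

variable {E : Type} [MetricSpace E] {k : Type} [Field k] {X : Set E} {τ g : E → E} {p m : ℕ}
  (A : ActQ X τ g p m) {I : Type} {a : I → E → E} (ha : ∀ i, a i = τ) {χ : I → k}

include A ha

/-- multiplication by the indicator preserves the cochains -/
theorem cut_mem_Zn {x : E} {r : ℝ} {B : Set E} {n : ℕ} {f : (Fin (n + 1) → E) → k}
    (hf : f ∈ Zn a χ X B n) :
    cut k (A.D x r) n f ∈ Zn a χ X B n :=
  ⟨cut_eqv hf.1 fun i y hy => by rw [ha i]; exact A.D_τ hy, Loc.VanN.cut hf.2⟩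

theorem cut_comm_mem {x : E} {r : ℝ} (P : A.Piece x r) {B : Set E} (hB : IsCompact B) {n : ℕ}
    {f : (Fin (n + 1) → E) → k} (hf : f ∈ Zn a χ X B n) :
    P265.AS.d (cut k (A.D x r) n f) - cut k (A.D x r) (n + 1) (P265.AS.d f) ∈
      Zn a χ X (B ∪ A.W x r) (n + 1) := by
  have h1 : Eqv a χ X (P265.AS.d (cut k (A.D x r) n f)) :=
    (cut_eqv hf.1 fun i y hy => by rw [ha i]; exact A.D_τ hy).d
  have h2 : Eqv a χ X (cut k (A.D x r) (n + 1) (P265.AS.d f)) :=
    cut_eqv hf.1.d fun i y hy => by rw [ha i]; exact A.D_τ hy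
  refine ⟨(eqvS _ χ X _).sub_mem h1 h2, ?_⟩
  rw [vanN_iff (hB.union (A.isCompact_W x r))]
  rintro b (hb | hb)
  · have h3 := (vanN_iff hB).1 hf.2 b hb
    exact h3.cut.d.sub h3.d.cut
  · exact vanAt_comm f (A.triv_D P hb)

theorem sum_cut_mem {x : E} {r : ℝ} (P : A.Piece x r) {B : Set E} (hB : IsCompact B) {n : ℕ}
    {f : (Fin (n + 1) → E) → k} (hf : f ∈ Zn a χ X B n) :
    ∑ j ∈ Finset.range p, cut k (g^[j] ⁻¹' A.D x r) n f - f ∈
      Zn a χ X (B ∪ A.W x r) n := by
  have h1 : ∀ j, Eqv a χ X (cut k (g^[j] ⁻¹' A.D x r) n f) := fun j =>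
    cut_eqv hf.1 fun i y hy => by
      rw [mem_preimage, mem_preimage, ha i, A.it_comm j y hy]
      exact A.D_τ (A.it_maps j hy)
  refine ⟨(eqvS _ χ X _).sub_mem ((eqvS _ χ X _).sum_mem fun j _ => h1 j) hf.1, ?_⟩
  rw [vanN_iff (hB.union (A.isCompact_W x r))]
  rintro b (hb | hb)
  · have h3 := (vanN_iff hB).1 hf.2 b hb
    refine VanAt.sub ?_ h3
    have h4 : ∀ s : Finset ℕ, VanAt X b (∑ j ∈ s, cut k (g^[j] ⁻¹' A.D x r) n f) := by
      classical
      intro s
      induction s using Finset.induction_on with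
      | empty => rw [Finset.sum_empty]; exact ⟨1, one_pos, fun _ _ => rfl⟩
      | insert j s hj ih => rw [Finset.sum_insert hj]; exact h3.cut.add ih
    exact h4 _
  · obtain ⟨j₀, hj₀, ρ, hρ, h⟩ := A.unique_D P hb
    refine ⟨ρ, hρ, fun y hy => ?_⟩
    rw [Pi.sub_apply, Finset.sum_apply, sub_eq_zero]
    rw [Finset.sum_eq_single_of_mem j₀ (Finset.mem_range.2 hj₀)]
    · exact cut_of_mem ((h _ (hy 0).1 (hy 0).2 j₀ hj₀).2 rfl)
    · intro j hj hne
      refine cut_of_notMem fun hD => hne ?_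
      exact (h _ (hy 0).1 (hy 0).2 j (Finset.mem_range.1 hj)).1 hD

omit ha in
/-- germs near the exceptional set vanish near an invariant neighbourhood -/
theorem exists_N_one {n : ℕ} {f : (Fin (n + 1) → E) → k}
    (hf : f ∈ Zn a χ X (FixM X g m) n) :
    ∃ c > 0, f ∈ Zn a χ X (A.N c) n := by
  obtain ⟨hfe, ε, hε, h⟩ := hf
  obtain ⟨c, hc, hcU⟩ := A.exists_nbhd (U := ⋃ b ∈ FixM X g m, Metric.ball b (ε / 2))
    (isOpen_biUnion fun _ _ => Metric.isOpen_ball)
    (fun x hx hgx => mem_iUnion₂.2 ⟨x, ⟨hx, hgx⟩, Metric.mem_ball_self (by positivity)⟩)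
  refine ⟨c, hc, hfe, ε / 2, by positivity, fun x hx => h x ⟨hx.1.mono le_rfl (by linarith),
    fun i => ?_⟩⟩
  obtain ⟨y, hy, hxy⟩ := hx.2 i
  obtain ⟨b, hb, hyb⟩ := mem_iUnion₂.1 (hcU y hy.1 hy.2)
  refine ⟨b, hb, ?_⟩
  have h1 := dist_triangle (x i) y b
  have h2 := Metric.mem_ball.1 hyb
  linarith

omit ha in
theorem exists_N {ι : Type*} (s : Finset ι) (n : ι → ℕ) (f : ∀ i, (Fin (n i + 1) → E) → k)
    (hf : ∀ i ∈ s, f i ∈ Zn a χ X (FixM X g m) (n i)) :
    ∃ c > 0, ∀ i ∈ s, f i ∈ Zn a χ X (A.N c) (n i) := by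
  classical
  induction s using Finset.induction_on with
  | empty => exact ⟨1, one_pos, fun i hi => absurd hi (Finset.notMem_empty i)⟩
  | insert i s hi ih =>
    obtain ⟨c, hc, h⟩ := ih fun j hj => hf j (Finset.mem_insert_of_mem hj)
    obtain ⟨c', hc', h'⟩ := exists_N_one A (hf i (Finset.mem_insert_self i s))
    refine ⟨min c c', lt_min hc hc', fun j hj => ?_⟩
    rcases Finset.mem_insert.1 hj with rfl | hj
    · exact Zn_anti le_rfl (A.N_mono (min_le_right _ _)) _ h'
    · exact Zn_anti le_rfl (A.N_mono (min_le_left _ _)) _ (h j hj)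

/-- pull back by `g` -/
theorem pb_mem_Zn {B : Set E} (hB : IsCompact B) (hBX : B ⊆ X) (hg : MapsTo g B B) {n : ℕ}
    {f : (Fin (n + 1) → E) → k} (hf : f ∈ Zn a χ X B n) :
    P265.AS.pb g f ∈ Zn a χ X B n := by
  constructor
  · intro i x hx
    have h1 := hf.1 i (g ∘ x) fun j => A.g_maps (hx j)
    have h2 : g ∘ (a i ∘ x) = a i ∘ (g ∘ x) := by
      funext j
      rw [ha i]
      exact A.comm _ (hx j)
    rw [P265.AS.pb_apply, P265.AS.pb_apply, h2]
    exact h1
  · rw [vanN_iff hB]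
    intro b hb
    obtain ⟨r, hr, h⟩ := (vanN_iff hB).1 hf.2 (g b) (hg hb)
    have hc := A.g_cont b (hBX hb)
    obtain ⟨s, hs, hs'⟩ := Metric.continuousWithinAt_iff.1 hc r hr
    exact ⟨s, hs, fun x hx => h _ fun i => ⟨A.g_maps (hx i).1, hs' (hx i).1 (hx i).2⟩⟩

end coch

end Vale.Agent.P216.H773
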