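import Vale.Agent.P216.H941.LocFF
import Vale.Agent.P216.DV706.Gys

/-!
# Components of equivariant classes when `nm = 0` and `1 - g` is null homotopic (P216, S^3)

`TrivQ G S A Q`: on `S / A` the norm vanishes and `1 - g = d Q + Q d`.  The twisted components
`cq n j c` of a cocycle give `F^n (S / A) ≃ ∏_{j ≤ n} H^j (S / A)`.
-/

namespace Vale.Agent.P216.H773

open Vale.Agent.P216.AS Vale.Agent.P216.H609

variable {k : Type} [Field k] {C : Amb k} {G : GCx C} {S A T : Sub C}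
  {Q : ∀ n, C.K (n + 1) →ₗ[k] C.K n}

/-- The norm vanishes on `S / A` and `1 - g` is null homotopic through `Q`. -/
structure TrivQ (G : GCx C) (S A : Sub C) (Q : ∀ n, C.K (n + 1) →ₗ[k] C.K n) : Prop where
  QS : ∀ n, ∀ x ∈ S (n + 1), Q n x ∈ S n
  QA : ∀ n, ∀ x ∈ A (n + 1), Q n x ∈ A n
  Q_d0 : ∀ x, Q 0 (C.d 0 x) = x - G.g 0 x
  Q_d : ∀ n x, C.d n (Q n x) + Q (n + 1) (C.d (n + 1) x) = x - G.g (n + 1) x
  nm_mem : ∀ n, ∀ x ∈ S n, G.nm n x ∈ A n

/-- the twisted component -/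
def cq (Q : ∀ n, C.K (n + 1) →ₗ[k] C.K n) (n j : ℕ) : (∀ q, C.K q) →ₗ[k] C.K j :=
  if (n + j) % 2 = 0 then LinearMap.proj j
  else LinearMap.proj j + (-1 : k) ^ (j + 1) • (Q j ∘ₗ LinearMap.proj (j + 1))

theorem cq_even {n j : ℕ} (h : (n + j) % 2 = 0) (c : ∀ q, C.K q) : cq Q n j c = c j := by
  rw [cq, if_pos h]
  rfl

theorem cq_odd {n j : ℕ} (h : (n + j) % 2 = 1) (c : ∀ q, C.K q) :
    cq Q n j c = c j + (-1 : k) ^ (j + 1) • Q j (c (j + 1)) := by
  rw [cq, if_neg (by omega)]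
  rfl

theorem cq_add_two (n m j : ℕ) : cq Q (n + 2 * m) j = cq Q n j := by
  unfold cq
  rw [show (n + 2 * m + j) % 2 = (n + j) % 2 by omega]

theorem cq_mem (hQ : ∀ n, ∀ x ∈ S (n + 1), Q n x ∈ S n) (n j : ℕ) {c : ∀ q, C.K q}
    (hc : ∀ q, c q ∈ S q) : cq Q n j c ∈ S j := by
  rcases Nat.mod_two_eq_zero_or_one (n + j) with h | h
  · rw [cq_even h]; exact hc j
  · rw [cq_odd h]
    exact Submodule.add_mem _ (hc j) (Submodule.smul_mem _ _ (hQ _ _ (hc _)))

/-- the components determine the sequence -/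
theorem mem_of_cq (hQ : ∀ n, ∀ x ∈ S (n + 1), Q n x ∈ S n) (n : ℕ) {c : ∀ q, C.K q}
    (hc : ∀ j, cq Q n j c ∈ S j) (q : ℕ) : c q ∈ S q := by
  rcases Nat.mod_two_eq_zero_or_one (n + q) with h | h
  · have h1 := hc q
    rwa [cq_even h] at h1
  · have h1 := hc q
    have h2 := hc (q + 1)
    rw [cq_odd h] at h1
    rw [cq_even (by omega)] at h2
    have h3 := Submodule.sub_mem _ h1 (Submodule.smul_mem _ ((-1 : k) ^ (q + 1)) (hQ _ _ h2))
    rwa [add_sub_cancel_right] at h3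

/-- the sequence with given components -/
def ci (Q : ∀ n, C.K (n + 1) →ₗ[k] C.K n) (n : ℕ) (b : ∀ q, C.K q) (j : ℕ) : C.K j :=
  if (n + j) % 2 = 0 then b j else b j - (-1 : k) ^ (j + 1) • Q j (b (j + 1))

theorem ci_even {n j : ℕ} (h : (n + j) % 2 = 0) (b : ∀ q, C.K q) : ci Q n b j = b j := if_pos h

theorem ci_odd {n j : ℕ} (h : (n + j) % 2 = 1) (b : ∀ q, C.K q) :
    ci Q n b j = b j - (-1 : k) ^ (j + 1) • Q j (b (j + 1)) := if_neg (by omega)

theorem cq_ci (n j : ℕ) (b : ∀ q, C.K q) : cq Q n j (ci Q n b) = b j := by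
  rcases Nat.mod_two_eq_zero_or_one (n + j) with h | h
  · rw [cq_even h, ci_even h]
  · rw [cq_odd h, ci_odd h, ci_even (by omega), sub_add_cancel]

theorem ci_mem (hQ : ∀ n, ∀ x ∈ S (n + 1), Q n x ∈ S n) (n : ℕ) {b : ∀ q, C.K q}
    (hb : ∀ j, b j ∈ S j) (q : ℕ) : ci Q n b q ∈ S q := by
  rcases Nat.mod_two_eq_zero_or_one (n + q) with h | h
  · rw [ci_even h]; exact hb q
  · rw [ci_odd h]
    exact Submodule.sub_mem _ (hb q) (Submodule.smul_mem _ _ (hQ _ _ (hb _)))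

theorem ci_zero {n m q : ℕ} {b : ∀ q, C.K q} (hb : ∀ j, m < j → b j = 0) (hq : m < q) :
    ci Q n b q = 0 := by
  rcases Nat.mod_two_eq_zero_or_one (n + q) with h | h
  · rw [ci_even h]; exact hb q hq
  · rw [ci_odd h, hb q hq, hb (q + 1) (by omega)]; simp

/-- **The components of a coboundary.** -/
theorem cq_D_zero (h : TrivQ G S A Q) (n : ℕ) {c : ∀ q, C.K q} (hc : ∀ q, c q ∈ S q) :
    cq Q (n + 1) 0 (G.D n c) ∈ A 0 := by
  rcases Nat.mod_two_eq_zero_or_one (n + 1 + 0) with h1 | h1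
  · rw [cq_even h1, GCx.D_zero, G.θ_even (by omega)]
    exact h.nm_mem 0 _ (hc 0)
  · rw [cq_odd h1, GCx.D_zero, GCx.D_succ, G.θ_odd (by omega), G.θ_even (by omega), map_add,
      h.Q_d0, map_smul]
    have e : c 0 - G.g 0 (c 0) + (-1 : k) ^ (0 + 1) • (c 0 - G.g 0 (c 0) +
        (-1 : k) ^ (0 + 1) • Q 0 (G.nm (0 + 1) (c (0 + 1)))) = Q 0 (G.nm 1 (c 1)) := by
      simp only [zero_add, pow_one, neg_smul, one_smul]
      abel
    rw [e]
    exact h.QA _ _ (h.nm_mem 1 _ (hc 1))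

theorem cq_D_succ (h : TrivQ G S A Q) (n q : ℕ) {c : ∀ q, C.K q} (hc : ∀ q, c q ∈ S q) :
    cq Q (n + 1) (q + 1) (G.D n c) - C.d q (cq Q n q c) ∈ A (q + 1) := by
  rcases Nat.mod_two_eq_zero_or_one (n + q) with h1 | h1
  · rw [cq_even (n := n + 1) (by omega), cq_even h1, GCx.D_succ, G.θ_even (by omega),
      add_sub_cancel_left]
    exact Submodule.smul_mem _ _ (h.nm_mem _ _ (hc _))
  · rw [cq_odd (n := n + 1) (by omega), cq_odd h1, GCx.D_succ, GCx.D_succ, G.θ_odd (by omega),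
      G.θ_even (by omega), map_add, map_add, map_smul, map_smul]
    have e : Q (q + 1) (C.d (q + 1) (c (q + 1))) =
        c (q + 1) - G.g (q + 1) (c (q + 1)) - C.d q (Q q (c (q + 1))) := by
      rw [← h.Q_d q (c (q + 1))]; abel
    rw [e]
    have e2 : C.d q (c q) + (-1 : k) ^ (q + 1) • (c (q + 1) - G.g (q + 1) (c (q + 1))) +
        (-1 : k) ^ (q + 1 + 1) • (c (q + 1) - G.g (q + 1) (c (q + 1)) - C.d q (Q q (c (q + 1))) +
          (-1 : k) ^ (q + 1 + 1) • Q (q + 1) (G.nm (q + 1 + 1) (c (q + 1 + 1)))) -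
        (C.d q (c q) + (-1 : k) ^ (q + 1) • C.d q (Q q (c (q + 1)))) =
        (-1 : k) ^ (q + 1 + 1) • (-1 : k) ^ (q + 1 + 1) •
          Q (q + 1) (G.nm (q + 1 + 1) (c (q + 1 + 1))) := by
      rw [pow_succ (-1 : k) (q + 1), mul_neg_one]
      simp only [smul_add, smul_sub, neg_smul]
      abel
    rw [e2]
    exact Submodule.smul_mem _ _ (Submodule.smul_mem _ _ (h.QA _ _ (h.nm_mem _ _ (hc _))))

section

variable {hS : G.Stable S} {hA : G.Stable A}

theorem comp_Zc (h : TrivQ G S A Q) {n : ℕ} {c : ∀ q, C.K q}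
    (hc : c ∈ Zc (G.TotS S hS) (G.TotS A hA) n) (j : ℕ) : cq Q n j c ∈ Zc S A j := by
  obtain ⟨h1, h2⟩ := mem_Zc.1 hc
  refine mem_Zc.2 ⟨cq_mem h.QS n j (memS h1), ?_⟩
  have h3 : cq Q (n + 1) (j + 1) (G.D n c) ∈ A (j + 1) := cq_mem h.QA _ _ (memS h2)
  have h4 := Submodule.sub_mem _ h3 (cq_D_succ h n j (memS h1))
  rwa [sub_sub_cancel] at h4

theorem comp_Bc (h : TrivQ G S A Q) {n : ℕ} {c : ∀ q, C.K q}
    (hc : c ∈ Bc (G.TotS S hS) (G.TotS A hA) n) (j : ℕ) : cq Q n j c ∈ Bc S A j := by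
  obtain ⟨t, ht, w, hw, rfl⟩ := mem_Bc.1 hc
  rw [map_add]
  refine Submodule.add_mem _ (T_le_Bc _ _ _ (cq_mem h.QA n j (memS ht))) ?_
  cases n with
  | zero =>
    rw [mem_im_zero.1 hw, map_zero]
    exact Submodule.zero_mem _
  | succ n =>
    obtain ⟨y, hy, rfl⟩ := mem_im_succ.1 hw
    change cq Q (n + 1) j (G.D n y) ∈ _
    cases j with
    | zero => exact T_le_Bc _ _ _ (cq_D_zero h n (memS hy))
    | succ j =>
      have h1 := Submodule.add_mem _ (T_le_Bc S A _ (cq_D_succ h n j (memS hy)))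
        (d_mem_Bc (T := A) (cq_mem h.QS n j (memS hy)))
      rwa [sub_add_cancel] at h1

/-- A sequence whose components are cocycles is a cocycle. -/
theorem Zc_of_comp (h : TrivQ G S A Q) {n : ℕ} {c : ∀ q, C.K q}
    (hc : ∀ q, cq Q n q c ∈ Zc S A q) (h0 : ∀ q, n < q → c q = 0) :
    c ∈ Zc (G.TotS S hS) (G.TotS A hA) n := by
  have hS' : ∀ q, c q ∈ S q := mem_of_cq h.QS n fun j => (mem_Zc.1 (hc j)).1
  have h1 : c ∈ (G.TotS S hS).S n := ⟨fun q _ => hS' q, h0⟩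
  refine mem_Zc.2 ⟨h1, fun q _ => ?_, ((G.TotS S hS).d_mem h1).2⟩
  refine mem_of_cq h.QA (n + 1) (fun j => ?_) q
  change cq Q (n + 1) j (G.D n c) ∈ _
  cases j with
  | zero => exact cq_D_zero h n hS'
  | succ j =>
    have h2 := Submodule.add_mem _ (cq_D_succ h n j hS') (mem_Zc.1 (hc j)).2
    rwa [sub_add_cancel] at h2

/-- A sequence whose components are coboundaries is a coboundary. -/
theorem Bc_of_comp (h : TrivQ G S A Q) {n : ℕ} {c : ∀ q, C.K q}
    (hc : ∀ q, cq Q n q c ∈ Bc S A q) (h0 : ∀ q, n < q → c q = 0) :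
    c ∈ Bc (G.TotS S hS) (G.TotS A hA) n := by
  cases n with
  | zero =>
    refine T_le_Bc _ _ _ ⟨fun q hq => ?_, h0⟩
    obtain rfl : q = 0 := by omega
    have h1 := hc 0
    rw [cq_even (by omega)] at h1
    exact mem_Bc_zero.1 h1
  | succ n =>
    have h1 : ∀ q, ∃ y : C.K q, y ∈ S q ∧ (q ≤ n → cq Q (n + 1) (q + 1) c - C.d q y ∈ A (q + 1)) ∧
        (n < q → y = 0) := by
      intro q
      by_cases hq : q ≤ n
      · obtain ⟨y, hy, h2⟩ := mem_Bc_succ.1 (hc (q + 1))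
        exact ⟨y, hy, fun _ => h2, fun h => absurd h (by omega)⟩
      · exact ⟨0, Submodule.zero_mem _, fun h => absurd h hq, fun _ => rfl⟩
    choose y hy h2 h3 using h1
    have hz : ci Q n y ∈ (G.TotS S hS).S n :=
      ⟨fun q _ => ci_mem h.QS n hy q, fun q hq => ci_zero (m := n) h3 hq⟩
    refine mem_Bc_succ.2 ⟨ci Q n y, hz, fun q _ => ?_, fun q hq => ?_⟩
    · refine mem_of_cq (S := A) h.QA (n + 1) (c := c - G.D n (ci Q n y)) (fun j => ?_) q
      rw [map_sub]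
      cases j with
      | zero =>
        refine Submodule.sub_mem _ ?_ (cq_D_zero h n (memS hz))
        exact mem_Bc_zero.1 (hc 0)
      | succ j =>
        have h4 := cq_D_succ h n j (memS hz)
        rw [cq_ci] at h4
        by_cases hj : j ≤ n
        · have h5 := Submodule.sub_mem _ (h2 j hj) h4
          rwa [sub_sub_sub_cancel_right] at h5
        · rw [h3 j (by omega), map_zero, sub_zero] at h4
          have h6 : cq Q (n + 1) (j + 1) c = 0 := by
            rcases Nat.mod_two_eq_zero_or_one (n + 1 + (j + 1)) with h7 | h7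
            · rw [cq_even h7, h0 _ (by omega)]
            · rw [cq_odd h7, h0 _ (by omega), h0 _ (by omega)]; simp
          rw [h6, zero_sub]
          exact Submodule.neg_mem _ h4
    · change c q - G.D n (ci Q n y) q = 0
      rw [h0 q hq]
      have : G.D n (ci Q n y) q = 0 := ((G.TotS S hS).d_mem hz).2 q hq
      rw [this, sub_zero]

/-- the components map -/
def compMap (h : TrivQ G S A Q) (n : ℕ) :
    H (G.TotS S hS) (G.TotS A hA) n →ₗ[k] ∀ j : Fin (n + 1), H S A j :=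
  LinearMap.pi fun j => H.gmap (cq Q n (j : ℕ)) (fun _ hx => comp_Zc h hx j)
    fun _ _ hx => comp_Bc h hx j

theorem compMap_bijective (h : TrivQ G S A Q) (n : ℕ) :
    Function.Bijective (compMap (hS := hS) (hA := hA) h n) := by
  constructor
  · rw [injective_iff_map_eq_zero]
    intro a ha
    obtain ⟨c, hc, rfl⟩ := H.exists_mk a
    rw [H.mk_eq_zero]
    have h0 := (mem_Zc.1 hc).1.2
    refine Bc_of_comp h (fun q => ?_) h0
    rcases Nat.lt_or_ge n q with hq | hq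
    · have h6 : cq Q n q c = 0 := by
        rcases Nat.mod_two_eq_zero_or_one (n + q) with h7 | h7
        · rw [cq_even h7, h0 _ (by omega)]
        · rw [cq_odd h7, h0 _ (by omega), h0 _ (by omega)]; simp
      rw [h6]
      exact Submodule.zero_mem _
    · have h1 := congrFun ha ⟨q, by omega⟩
      exact H.mk_eq_zero.1 h1
  · intro b
    have h1 : ∀ j : Fin (n + 1), ∃ x, ∃ hx : x ∈ Zc S A j, H.mk x hx = b j :=
      fun j => H.exists_mk (b j)
    choose x hx hb using h1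
    let c' : ∀ q, C.K q := fun q => if hq : q < n + 1 then x ⟨q, hq⟩ else 0
    have hc1 : ∀ j : Fin (n + 1), c' j = x j := fun j => dif_pos j.2
    have hc2 : ∀ q, n < q → c' q = 0 := fun q hq => dif_neg (by omega)
    have hc3 : ∀ q, c' q ∈ Zc S A q := fun q => by
      rcases Nat.lt_or_ge n q with hq | hq
      · rw [hc2 q hq]; exact Submodule.zero_mem _
      · have := hc1 ⟨q, by omega⟩
        change c' q = _ at this
        rw [this]
        exact hx ⟨q, by omega⟩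
    have hc : ci Q n c' ∈ Zc (G.TotS S hS) (G.TotS A hA) n :=
      Zc_of_comp h (fun q => by rw [cq_ci]; exact hc3 q) fun q hq => ci_zero (m := n) hc2 hq
    refine ⟨H.mk (C := G.Tot) (ci Q n c') hc, ?_⟩
    funext j
    rw [← hb j]
    refine H.mk_eq_mk.2 ?_
    have h2 : cq Q n j (ci Q n c') - x j = 0 := by rw [cq_ci, hc1 j, sub_self]
    change cq Q n j (ci Q n c') - x j ∈ _
    rw [h2]
    exact Submodule.zero_mem _

theorem finite_F (h : TrivQ G S A Q) [∀ j, FiniteDimensional k (H S A j)] (n : ℕ) :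
    FiniteDimensional k (H (G.TotS S hS) (G.TotS A hA) n) :=
  LinearEquiv.finiteDimensional
    (LinearEquiv.ofBijective _ (compMap_bijective (hS := hS) (hA := hA) h n)).symm

/-- high classes come from low degrees -/
theorem umap_surjective (h : TrivQ G S A Q) {J : ℕ} (hJ : ∀ j ≥ J, ∀ x ∈ Zc S A j, x ∈ Bc S A j)
    {n : ℕ} (hn : J ≤ n) (m : ℕ) : Function.Surjective (umap G S A hS hA n m) := by
  refine H.gmap_surjective fun c hc => ?_
  let b : ∀ q, C.K q := fun q => if q ≤ n then cq Q n q c else 0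
  have hb2 : ∀ q, n < q → b q = 0 := fun q hq => if_neg (by omega)
  have hcc : ∀ q, cq Q n q c ∈ Zc S A q := fun q => by
    have := comp_Zc h hc q
    rwa [cq_add_two] at this
  have hc' : ci Q n b ∈ Zc (G.TotS S hS) (G.TotS A hA) n :=
    Zc_of_comp h (fun q => by
      rw [cq_ci]
      change (if q ≤ n then cq Q n q c else 0) ∈ _
      split_ifs
      · exact hcc q
      · exact Submodule.zero_mem _) fun q hq => ci_zero (m := n) hb2 hq
  refine ⟨ci Q n b, hc', ?_⟩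
  refine Bc_of_comp h (fun q => ?_) (fun q hq => ?_)
  · change cq Q (n + 2 * m) q (c - ci Q n b) ∈ _
    rw [cq_add_two, map_sub, cq_ci]
    change cq Q n q c - (if q ≤ n then cq Q n q c else 0) ∈ _
    split_ifs with hqn
    · rw [sub_self]; exact Submodule.zero_mem _
    · rw [sub_zero]
      exact hJ q (by omega) _ (hcc q)
  · change c q - ci Q n b q = 0
    rw [ci_zero (m := n) hb2 (by omega), sub_zero]
    exact (mem_Zc.1 hc).1.2 q hq

end

section Loc

variable {hS : G.Stable S} {hA : G.Stable A} {hT : G.Stable T}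

/-- **Localisation**: `F n (S / T) → F n (S / A)` is onto in high degrees. -/
theorem exists_surjective (h : TrivQ G S A Q) (hTA : T ≤ A) (hAS : A ≤ S)
    (ht : UTors G A T hA hT) [∀ j, FiniteDimensional k (H S A j)] {J : ℕ}
    (hJ : ∀ j ≥ J, ∀ x ∈ Zc S A j, x ∈ Bc S A j) :
    ∃ N, ∀ n ≥ N, Function.Surjective (resF hS hA hT hTA n) := by
  have := finite_F (hS := hS) (hA := hA) h
  obtain ⟨m₁, h1⟩ := exists_lift_uniform (hS := hS) (hA := hA) (hT := hT) hTA hAS ht J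
  obtain ⟨m₂, h2⟩ := exists_lift_uniform (hS := hS) (hA := hA) (hT := hT) hTA hAS ht (J + 1)
  refine ⟨J + 1 + 2 * max m₁ m₂, fun n hn => ?_⟩
  rw [← LinearMap.range_eq_top, eq_top_iff]
  rcases Nat.even_or_odd' (n - J) with ⟨m, hm | hm⟩
  · obtain rfl : n = J + 2 * m := by omega
    refine le_trans ?_ (h1 m (by have := le_max_left m₁ m₂; omega))
    rw [LinearMap.range_eq_top.2 (umap_surjective h hJ le_rfl m)]
  · obtain rfl : n = J + 1 + 2 * m := by omega
    refine le_trans ?_ (h2 m (by have := le_max_right m₁ m₂; omega))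
    rw [LinearMap.range_eq_top.2 (umap_surjective h hJ (by omega) m)]

/-- The component `F^n (S / T) → H^j (S / A)`. -/
def lamQ (h : TrivQ G S A Q) (hTA : T ≤ A) (n j : ℕ) :
    H (G.TotS S hS) (G.TotS T hT) n →ₗ[k] H S A j :=
  H.gmap (cq Q n j)
    (fun _ hx => comp_Zc (hA := hA) h (Zc_mono le_rfl (TotS_le hTA) n hx) j)
    fun _ _ hx => comp_Bc (hA := hA) h (Bc_mono le_rfl (TotS_le hTA) n hx) j

theorem lamQ_mk (h : TrivQ G S A Q) (hTA : T ≤ A) (n j : ℕ) {c : ∀ q, C.K q}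
    (hc : c ∈ Zc (G.TotS S hS) (G.TotS T hT) n) :
    lamQ (hA := hA) h hTA n j (H.mk c hc) =
      H.mk (cq Q n j c) (comp_Zc (hA := hA) h (Zc_mono le_rfl (TotS_le hTA) n hc) j) := rfl

theorem lamQ_of_lt (h : TrivQ G S A Q) (hTA : T ≤ A) {n j : ℕ} (hj : n < j)
    (x : H (G.TotS S hS) (G.TotS T hT) n) : lamQ (hA := hA) h hTA n j x = 0 := by
  obtain ⟨c, hc, rfl⟩ := H.exists_mk x
  have h0 := (mem_Zc.1 hc).1.2
  have h6 : cq Q n j c = 0 := by
    rcases Nat.mod_two_eq_zero_or_one (n + j) with h7 | h7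
    · rw [cq_even h7, h0 _ (by omega)]
    · rw [cq_odd h7, h0 _ (by omega), h0 _ (by omega)]; simp
  rw [lamQ_mk, H.mk_eq_zero, h6]
  exact Submodule.zero_mem _

theorem lamQ_u (P : G.Pair) {A : Sub C} {hA : G.Stable A} (h : TrivQ G P.S A Q) (hTA : P.T ≤ A)
    (n j : ℕ) (x : P.FF n) :
    lamQ (hA := hA) h hTA (n + 2) j (P.u n x) = lamQ (hA := hA) h hTA n j x := by
  obtain ⟨c, hc, rfl⟩ := H.exists_mk x
  obtain ⟨hc', e⟩ := DV.Circ.PSt.u_mk hc
  rw [e, lamQ_mk, lamQ_mk, H.mk_eq_mk, cq_add_two n 1 j, sub_self]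
  exact Submodule.zero_mem _

/-- Joint injectivity in high degrees. -/
theorem lamQ_inj (P : G.Pair) {A : Sub C} {hA : G.Stable A} (h : TrivQ G P.S A Q) (hTA : P.T ≤ A)
    (hAS : A ≤ P.S) (ht : UTors G A P.T hA P.hT) {J : ℕ} (hJ : ∀ j ≥ J, Subsingleton (P.HH j))
    {n : ℕ} (hn : J ≤ n) (x : P.FF n) (hx : ∀ j ≤ n, lamQ (hA := hA) h hTA n j x = 0) : x = 0 := by
  refine H941.resF_injective_high P (hA := hA) hTA hAS ht hJ hn ?_
  rw [map_zero]
  refine (compMap_bijective (hS := P.hS) (hA := hA) h n).1 ?_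
  rw [map_zero]
  obtain ⟨c, hc, rfl⟩ := H.exists_mk x
  funext j
  exact hx j (by omega)

/-- Joint surjectivity in high degrees. -/
theorem lamQ_surj (P : G.Pair) {A : Sub C} {hA : G.Stable A} (h : TrivQ G P.S A Q) (hTA : P.T ≤ A)
    (hAS : A ≤ P.S) (ht : UTors G A P.T hA P.hT) [∀ j, FiniteDimensional k (H P.S A j)] {J : ℕ}
    (hJ : ∀ j ≥ J, Subsingleton (H P.S A j)) :
    ∃ N, ∀ n ≥ N, ∀ y : ∀ j, H P.S A j, ∃ x : P.FF n, ∀ j ≤ n,
      lamQ (hA := hA) h hTA n j x = y j := by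
  obtain ⟨N, hN⟩ := exists_surjective (hS := P.hS) (hA := hA) (hT := P.hT) h hTA hAS ht
    (J := J) fun j hj => H.subsingleton_iff.1 (hJ j hj)
  refine ⟨N, fun n hn y => ?_⟩
  obtain ⟨z, hz⟩ := (compMap_bijective (hS := P.hS) (hA := hA) h n).2 fun j => y j
  obtain ⟨x, rfl⟩ := hN n hn z
  refine ⟨x, fun j hj => ?_⟩
  have h1 := congrFun hz ⟨j, by omega⟩
  rw [← h1]
  obtain ⟨c, hc, rfl⟩ := H.exists_mk x
  rfl

end Loc

end Vale.Agent.P216.H773
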