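import Vale.Agent.P216.AS.Taut

/-!
# Tautness without dividing by `2` (P216, `S^3`)

`taut_of` : tautness of a compact invariant set from an equivariant (not continuous) nearest point
map.  Instances: no symmetry (`taut_empty`), one free involution (`taut_free`); any field.
-/

open Set Matrix

namespace Vale.Agent.P216.H773

open Vale.Agent.P216.AS

variable {E : Type} {k : Type} [Field k] {I : Type}

/-- An equivariant nearest point map. -/
structure Nr [PseudoMetricSpace E] (a : I → E → E) (X A : Set E) (ν : E → E) : Prop where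
  mapsX : MapsTo ν X X
  mapsA : MapsTo ν A A
  fixA : ∀ x ∈ A, dist x (ν x) ≤ 0
  comm : ∀ i, ∀ x ∈ X, ν (a i x) = a i (ν x)
  near : ∀ ε > 0, ∃ δ > 0, ∀ x ∈ X, (∃ y ∈ A, dist x y < δ) → ν x ∈ A ∧ dist x (ν x) < ε

section

variable [PseudoMetricSpace E] {a : I → E → E} {χ : I → k} {X A : Set E} {ν : E → E}

theorem prism_eqv' (h : Nr a X A ν) {n : ℕ} {c : (Fin (n + 1) → E) → k} (hc : Eqv a χ X c) :
    Eqv a χ X (P265.AS.prism ν id c) := by
  intro i x hx
  rw [P265.AS.prism_comp ν id (a i) (a i) c x (fun j => h.comm i _ (hx j)) fun j => rfl]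
  have : P265.AS.prism ν id (P265.AS.pb (a i) c - χ i • c) x = 0 := by
    apply P265.AS.prism_eq_zero
    intro y hy
    rw [Pi.sub_apply, P265.AS.pb_apply, hc i y, Pi.smul_apply, smul_eq_mul, sub_self]
    intro j
    obtain ⟨l, hl | hl⟩ := hy j
    · exact hl ▸ h.mapsX (hx l)
    · exact hl ▸ hx l
  rw [P265.AS.prism_sub, P265.AS.prism_smul, Pi.sub_apply, sub_eq_zero] at this
  exact this

theorem taut_of_mem (h : Nr a X A ν) (hAX : A ⊆ X) {n : ℕ} {f : (Fin (n + 1) → E) → k}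
    (hf : f ∈ Zc (Zr a χ X A) (Zn a χ X A) n) : f ∈ Bc (Zr a χ X A) (Zn a χ X A) n := by
  obtain ⟨⟨hfE, ε₀, hε₀, h0⟩, -, ε₁, hε₁, h1⟩ := hf
  have h0' : ∀ x, Sm A ε₀ x → f x = 0 := h0
  have h1' : ∀ x, SmN X A ε₁ x → P265.AS.d f x = 0 := h1
  have hg : Van A (P265.AS.prism ν id f) := by
    refine ⟨ε₀, hε₀, fun x hx => P265.AS.prism_eq_zero _ _ fun y hy => h0' y ?_⟩
    refine ⟨mixed_mem hx.1 (fun i => h.mapsA (hx.1 i)) hy, fun i j => ?_⟩
    have := mixed_dist le_rfl hx.2 (fun i => h.fixA _ (hx.1 i)) hy i j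
    simpa using this
  have hh : VanN X A (f - P265.AS.d (P265.AS.prism ν id f)) := by
    rw [sub_d_prism]
    have hpos : 0 < min (ε₀ / 3) (ε₁ / 3) := by positivity
    obtain ⟨δ, hδ, hnear⟩ := h.near _ hpos
    set ε := min (ε₀ / 3) (ε₁ / 3) with hε
    have e0 : ε ≤ ε₀ / 3 := min_le_left _ _
    have e1 : ε ≤ ε₁ / 3 := min_le_right _ _
    refine ⟨min δ ε, lt_min hδ hpos, fun x hx => ?_⟩
    have hν' : ∀ i, ν (x i) ∈ A ∧ dist (x i) (ν (x i)) < ε := fun i => by
      obtain ⟨y, hy, hxy⟩ := hx.2 i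
      exact hnear _ (hx.1.1 i) ⟨y, hy, hxy.trans_le (min_le_left _ _)⟩
    have hxε : ∀ i j, dist (x i) (x j) < ε := fun i j => (hx.1.2 i j).trans_le (min_le_right _ _)
    rw [Pi.add_apply, P265.AS.pb_apply, h0' (ν ∘ x), zero_add]
    · refine P265.AS.prism_eq_zero _ _ fun y hy => h1' y ⟨⟨mixed_mem hx.1.1
        (fun i => hAX (hν' i).1) hy, fun i j => ?_⟩, fun i => ?_⟩
      · have := mixed_dist hpos.le hxε (fun i => (hν' i).2.le) hy i j
        linarith
      · obtain ⟨l, hl | hl⟩ := hy i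
        · exact ⟨ν (x l), (hν' l).1, by rw [hl]; simpa using hε₁⟩
        · exact ⟨ν (x l), (hν' l).1, by rw [hl]; exact (hν' l).2.trans_le (by linarith)⟩
    · refine ⟨fun i => (hν' i).1, fun i j => ?_⟩
      have h3 := hxε i j
      have h4 := (hν' i).2
      have h5 := (hν' j).2
      have h6 := dist_triangle4 (ν (x i)) (x i) (x j) (ν (x j))
      rw [dist_comm (ν (x i)) (x i)] at h6
      change dist (ν (x i)) (ν (x j)) < ε₀
      linarith
  have hE : Eqv a χ X (f - P265.AS.d (P265.AS.prism ν id f)) := hfE.sub (prism_eqv' h hfE).d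
  cases n with
  | zero =>
    rw [mem_Bc_zero]
    have h6 : P265.AS.d (P265.AS.prism ν id f) = 0 := by
      change P265.AS.d (0 : (Fin 0 → E) → k) = 0
      rw [P265.AS.d_zero]
    rw [h6, sub_zero] at hh hE
    exact ⟨hE, hh⟩
  | succ n =>
    rw [mem_Bc_succ]
    exact ⟨P265.AS.prism ν id f, ⟨prism_eqv' h hfE, hg⟩, hE, hh⟩

/-- **Tautness** from an equivariant nearest point map. -/
theorem taut_of (h : Nr a X A ν) (hAX : A ⊆ X) (n : ℕ) :
    Subsingleton (H (Zr a χ X A) (Zn a χ X A) n) :=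
  H.subsingleton_iff.2 fun _ hx => taut_of_mem h hAX hx

/-- The nearest point map without symmetries. -/
theorem nr_empty [IsEmpty I] (hA : IsCompact A) (hAX : A ⊆ X) : Nr a X A (AS.near A 1) where
  mapsX _ hx := near_mem hAX 1 hx
  mapsA _ hx := near_mem le_rfl 1 hx
  fixA x hx := by
    have := (near_spec hA hx (r := 1) (x := x) (by simp)).2
    simpa using this
  comm i := isEmptyElim i
  near ε hε := by
    refine ⟨min ε 1, by positivity, fun x _ ⟨y, hy, hxy⟩ => ?_⟩
    have := near_spec hA hy (hxy.trans_le (min_le_right _ _))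
    exact ⟨this.1, this.2.trans_lt (hxy.trans_le (min_le_left _ _))⟩

theorem taut_empty [IsEmpty I] (hA : IsCompact A) (hAX : A ⊆ X) (n : ℕ) :
    Subsingleton (H (Zr a χ X A) (Zn a χ X A) n) := taut_of (nr_empty hA hAX) hAX n

end

section Free

variable {τ : E → E} {X A : Set E}

/-- a fundamental domain of a free involution -/
theorem exists_dom (hττ : ∀ x ∈ X, τ (τ x) = x) (hm : MapsTo τ X X) (hne : ∀ x ∈ X, τ x ≠ x) :
    ∃ S : Set E, ∀ x ∈ X, (τ x ∈ S ↔ x ∉ S) := by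
  classical
  -- choose one point in each pair
  let rep : Set E → Set E := fun s => if h : s.Nonempty then {h.some} else ∅
  refine ⟨{x | x ∈ rep {x, τ x}}, fun x hx => ?_⟩
  have h1 : ({τ x, τ (τ x)} : Set E) = {x, τ x} := by rw [hττ x hx, pair_comm]
  have hn : ({x, τ x} : Set E).Nonempty := ⟨x, by simp⟩
  have h2 : rep {x, τ x} = {hn.some} := dif_pos hn
  change τ x ∈ rep {τ x, τ (τ x)} ↔ ¬ x ∈ rep {x, τ x}
  rw [h1, h2, mem_singleton_iff, mem_singleton_iff]
  have h3 : hn.some = x ∨ hn.some = τ x := hn.some_mem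
  rcases h3 with h3 | h3
  · rw [h3]
    exact ⟨fun h => absurd h (hne x hx), fun h => absurd rfl h⟩
  · rw [h3]
    exact ⟨fun _ h => hne x hx h.symm, fun _ => rfl⟩

open Classical in
/-- the symmetrised nearest point map -/
noncomputable def nu [PseudoMetricSpace E] (τ : E → E) (S A : Set E) (x : E) : E :=
  if x ∈ S then AS.near A 1 x else τ (AS.near A 1 (τ x))

variable [PseudoMetricSpace E] {a : I → E → E} {χ : I → k}

theorem nr_free (ha : ∀ i, a i = τ) (hττ : ∀ x ∈ X, τ (τ x) = x) (hm : MapsTo τ X X)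
    (huc : ∀ ε > 0, ∃ δ > 0, ∀ x ∈ X, ∀ y ∈ X, dist x y < δ → dist (τ x) (τ y) < ε)
    {S : Set E} (hS : ∀ x ∈ X, (τ x ∈ S ↔ x ∉ S)) (hA : IsCompact A) (hAX : A ⊆ X)
    (hmA : MapsTo τ A A) : Nr a X A (nu τ S A) where
  mapsX x hx := by
    unfold nu
    split_ifs
    · exact near_mem hAX 1 hx
    · exact hm (near_mem hAX 1 (hm hx))
  mapsA x hx := by
    unfold nu
    split_ifs
    · exact near_mem le_rfl 1 hx
    · exact hmA (near_mem le_rfl 1 (hmA hx))
  fixA x hx := by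
    have key : ∀ z ∈ A, dist z (AS.near A 1 z) ≤ 0 := fun z hz => by
      have := (near_spec hA hz (r := 1) (x := z) (by simp)).2
      simpa using this
    unfold nu
    split_ifs
    · exact key x hx
    · have h1 := key (τ x) (hmA hx)
      refine le_of_forall_pos_lt_add fun ε hε => ?_
      obtain ⟨δ, hδ, h2⟩ := huc ε hε
      have h3 := h2 (τ x) (hm (hAX hx)) _ (near_mem hAX 1 (hm (hAX hx)) : AS.near A 1 (τ x) ∈ X)
        (h1.trans_lt hδ)
      rw [hττ x (hAX hx)] at h3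
      simpa using h3
  comm i x hx := by
    rw [ha i]
    unfold nu
    by_cases h : x ∈ S
    · rw [if_pos h, if_neg (fun h' => (hS x hx).1 h' h), hττ x hx]
    · rw [if_neg h, if_pos ((hS x hx).2 h), hττ _ (near_mem hAX 1 (hm hx))]
  near ε hε := by
    obtain ⟨δ₁, hδ₁, h1⟩ := huc ε hε
    obtain ⟨δ₂, hδ₂, h2⟩ := huc (min δ₁ 1) (by positivity)
    refine ⟨min (min ε 1) δ₂, by positivity, fun x hx ⟨y, hy, hxy⟩ => ?_⟩
    unfold nu
    split_ifs
    · have := near_spec hA hy (hxy.trans_le ((min_le_left _ _).trans (min_le_right _ _)))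
      exact ⟨this.1, this.2.trans_lt (hxy.trans_le ((min_le_left _ _).trans (min_le_left _ _)))⟩
    · have h3 := h2 x hx y (hAX hy) (hxy.trans_le (min_le_right _ _))
      have h4 := near_spec hA (hmA hy) (h3.trans_le (min_le_right _ _))
      refine ⟨hmA h4.1, ?_⟩
      have h5 := h1 (τ x) (hm hx) _ (hAX h4.1)
        (h4.2.trans_lt (h3.trans_le (min_le_left _ _)))
      rwa [hττ x hx] at h5

/-- **Tautness** for a free involution. -/
theorem taut_free (ha : ∀ i, a i = τ) (hττ : ∀ x ∈ X, τ (τ x) = x) (hm : MapsTo τ X X)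
    (huc : ∀ ε > 0, ∃ δ > 0, ∀ x ∈ X, ∀ y ∈ X, dist x y < δ → dist (τ x) (τ y) < ε)
    (hne : ∀ x ∈ X, τ x ≠ x) (hA : IsCompact A) (hAX : A ⊆ X)
    (hmA : MapsTo τ A A) (n : ℕ) : Subsingleton (H (Zr a χ X A) (Zn a χ X A) n) := by
  obtain ⟨S, hS⟩ := exists_dom hττ hm hne
  exact taut_of (nr_free ha hττ hm huc hS hA hAX hmA) hAX n

end Free

end Vale.Agent.P216.H773
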