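import Vale.Agent.P216.H773.Loc4
import Vale.Agent.P216.H773.Taut4
import Vale.Agent.P216.H467E.Two
import Vale.Agent.P216.AS.Setup707

/-!
# Localisation at the fixed set of the half rotation, for a `GSys` (P216, `S^3`, block LOC-a)

* `S.fix4 t` : the points of `X t` fixed by `(rot 4)^[2]`;
* `S.act4`, `S.uTors4` : the relative `Z/4`-equivariant cohomology is `u`-torsion (any field);
* `S.fixMap4` : `H (CS / CFix4) → V (t / 2)`, bijective.
-/

open Set Topology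

namespace Vale.Agent.P216.GSys

open AS H609 Loc H773

variable {Λ : Type} [MetricSpace Λ] (S : GSys Λ)

/-- no half rotation is the deck transformation -/
def Sheet : Prop := ∀ s, ∀ x ∈ S.X s, S.rot 2 x ≠ S.τ x

/-- the fixed set of the half rotation -/
abbrev fix4 (t : ℝ) : Set Λ := FixM (S.X t) (S.rot 4) 2

/-- cochains vanishing on the small tuples of `fix4` -/
abbrev CFix4 (k : Type) [Field k] (t : ℝ) : AS.Sub (AS.ASK Λ k) :=
  AS.Zr (fun _ : Unit => S.τ) (fun _ : Unit => (-1 : k)) (S.X t) (S.fix4 t)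

theorem fix4_sub (t : ℝ) : S.fix4 t ⊆ S.X t := fun _ h => h.1

theorem CT_le_CFix4 (k : Type) [Field k] (t : ℝ) : S.CT k t ≤ S.CFix4 k t :=
  Zr_anti le_rfl (S.fix4_sub t)

theorem CFix4_le_CS (k : Type) [Field k] (t : ℝ) : S.CFix4 k t ≤ S.CS k t := Zr_le_Cc

variable {S}

theorem act4 (h42 : ∀ x, S.rot 4 (S.rot 4 x) = S.rot 2 x) (hsh : S.Sheet) (t : ℝ) :
    ActQ (S.X t) S.τ (S.rot 4) 4 2 where
  cpt := S.compact t
  one_lt := by norm_num
  τ_cont := S.cont_τ t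
  g_cont := S.cont_rot 4 t
  τ_maps := S.τ_mem t
  g_maps := S.rot_mem 4 t
  τ_τ x _ := S.τ_τ x
  g_p x _ := S.rot_pow 4 (by norm_num) x
  comm x _ := (S.τ_rot 4 x).symm
  free x hx h j hj0 hj4 := by
    have hp : ∀ y, (S.rot 4)^[4] y = y := fun y => S.rot_pow 4 (by norm_num) y
    have hτ : ∀ (i : ℕ) (y : Λ), (S.rot 4)^[i] (S.τ y) = S.τ ((S.rot 4)^[i] y) := by
      intro i
      induction i with
      | zero => intro y; rfl
      | succ i ih =>
        intro y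
        rw [Function.iterate_succ_apply', ih, ← S.τ_rot, ← Function.iterate_succ_apply' (S.rot 4)]
    have h1 : S.rot 4 x ≠ x := fun h' => h (by
      change S.rot 4 (S.rot 4 x) = x
      rw [h', h'])
    have h3 : (S.rot 4)^[3] x ≠ x := fun h' => by
      have h4 := hp x
      rw [Function.iterate_succ_apply', h'] at h4
      exact h1 h4
    have hd : ∀ i, (S.rot 4)^[i] x = S.τ x → (S.rot 4)^[i + i] x = x := fun i hi => by
      rw [Function.iterate_add_apply, hi, hτ, hi, S.τ_τ]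
    interval_cases j
    · refine ⟨h1, fun h' => h ?_⟩
      exact hd 1 h'
    · refine ⟨h, fun h' => hsh t x hx ?_⟩
      rw [← h42]
      exact h'
    · refine ⟨h3, fun h' => h ?_⟩
      have h6 := hd 3 h'
      rw [show 3 + 3 = 2 + 4 by norm_num, Function.iterate_add_apply, hp] at h6
      exact h6

theorem mapsTo_τ_fix4 (h42 : ∀ x, S.rot 4 (S.rot 4 x) = S.rot 2 x) (hsh : S.Sheet) (t : ℝ) :
    MapsTo S.τ (S.fix4 t) (S.fix4 t) := (act4 h42 hsh t).mapsTo_τ_FixM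

theorem mapsTo_g_fix4 (h42 : ∀ x, S.rot 4 (S.rot 4 x) = S.rot 2 x) (hsh : S.Sheet) (t : ℝ) :
    MapsTo (S.rot 4) (S.fix4 t) (S.fix4 t) := (act4 h42 hsh t).mapsTo_g_FixM

theorem fix4_eq (h42 : ∀ x, S.rot 4 (S.rot 4 x) = S.rot 2 x) (t : ℝ) :
    S.fix4 t = {x ∈ S.X t | S.rot 2 x = x} := by
  ext x
  refine and_congr_right fun _ => ?_
  rw [← h42]
  rfl

variable (k : Type) [Field k] (hp0 : 0 < 4)

theorem CFix4_stable (h42 : ∀ x, S.rot 4 (S.rot 4 x) = S.rot 2 x) (hsh : S.Sheet) (t : ℝ) :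
    (S.sym k 4 hp0).gcx.Stable (S.CFix4 k t) :=
  Sym.stable_Zr (S.good k 4 hp0 t) (S.fix4_sub t) (mapsTo_g_fix4 h42 hsh t)

/-- Tautness of the fixed set, any field. -/
theorem taut4 (h42 : ∀ x, S.rot 4 (S.rot 4 x) = S.rot 2 x) (hsh : S.Sheet) (t : ℝ) (n : ℕ) :
    Subsingleton (H (S.CFix4 k t) (Zn (fun _ : Unit => S.τ) (fun _ : Unit => (-1 : k)) (S.X t)
      (S.fix4 t)) n) :=
  taut_free (fun _ => rfl) (fun x _ => S.τ_τ x) (S.τ_mem t) (by
    intro ε hε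
    have h := (S.compact t).uniformContinuousOn_of_continuous (S.cont_τ t)
    rw [Metric.uniformContinuousOn_iff] at h
    obtain ⟨δ, hδ, h⟩ := h ε hε
    exact ⟨δ, hδ, fun x hx y hy hxy => h x hx y hy hxy⟩) (fun x hx => S.τ_ne t x hx)
    (act4 h42 hsh t).isCompact_FixM (S.fix4_sub t) (mapsTo_τ_fix4 h42 hsh t) n

/-- **Localisation** (LOC-a), any field. -/
theorem uTors4 (h42 : ∀ x, S.rot 4 (S.rot 4 x) = S.rot 2 x) (hsh : S.Sheet) (t : ℝ) :
    UTors (S.sym k 4 hp0).gcx (S.CFix4 k t) (S.CT k t) (CFix4_stable k hp0 h42 hsh t)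
      (S.P k 4 hp0 t).hT :=
  H773.uTors4 (hg := S.rot_pow 4 hp0) (act4 h42 hsh t) (fun _ => rfl) (taut4 k h42 hsh t) _ _

variable (W : GSys.Two S)

theorem ψ_image4 {t : ℝ} (ht : 0 ≤ t) : W.ψ '' S.X (t / 2) = S.fix4 t := by
  have h := W.ψ_image (t / 2) (by positivity)
  rw [mul_div_cancel₀ t (two_ne_zero' ℝ)] at h
  rw [h, fix4_eq W.rot42]

theorem isMap_ψ4 {t : ℝ} (ht : 0 ≤ t) :
    IsMap (fun _ : Unit => S.τ) (fun _ : Unit => S.τ) (S.X (t / 2)) (S.fix4 t) W.ψ :=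
  IsMap.of_continuousOn (S.compact _) (W.ψ_cont (t / 2) (by positivity))
    (fun x hx => by rw [← ψ_image4 W ht]; exact mem_image_of_mem _ hx) fun _ x _ => W.ψ_τ x

/-- The cohomology of the fixed set is that of `X (t / 2)`. -/
noncomputable def fixMap4 {t : ℝ} (ht : 0 ≤ t) (j : ℕ) :
    H (S.CS k t) (S.CFix4 k t) j →ₗ[k] S.V k (t / 2) j :=
  pull (fun _ : Unit => (-1 : k)) (isMap_ψ4 W ht) j ∘ₗ
    Hinc (Cc_anti (S.fix4_sub t)) (Zr_anti (S.fix4_sub t) le_rfl) j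

theorem fixMap4_bijective (hsh : S.Sheet) {t : ℝ} (ht : 0 ≤ t) (j : ℕ) :
    Function.Bijective (fixMap4 k W ht j) := by
  have h1 := H985.quot_bijective (k := k) (a := fun _ : Unit => S.τ)
    (χ := fun _ : Unit => (-1 : k)) (X := S.X t) (A := S.fix4 t) (S.fix4_sub t)
    (fun _ x _ => inv_of S.τ_τ (mapsTo_τ_fix4 W.rot42 hsh t) () x) j
  have h3 := pull_bijective (χ := fun _ : Unit => (-1 : k)) (S.compact _)
    (W.ψ_cont (t / 2) (by positivity)) (W.ψ_inj (t / 2) (by positivity)) (ψ_image4 W ht)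
    (fun _ => S.τ_mem _) (isMap_ψ4 W ht) j
  exact h3.comp h1

end Vale.Agent.P216.GSys
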